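import Vale.Agent.Lib.P047b.Riesz

/-!
If `x_1, …, x_s` in the unit ball of `X` span `ℓ_1^s` with lower constant `1/C` and `X*` has
cotype `r` with constant `A`, then the Rademacher projection on `L_2({-1,1}^s; X)` has norm at
least `s^(1/r) / (A C)`.
-/

open Finset

namespace Vale.Agent.Results.P111.RadGrowth

universe u v

/-- The sign attached to a Boolean value. -/
noncomputable def sgn (b : Bool) : ℝ := if b then 1 else -1

/-- The `L_2` norm of a function on the cube with values in a normed space, for the uniform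
probability measure. -/
noncomputable def nL2 {s : ℕ} {V : Type*} [NormedAddCommGroup V] (f : (Fin s → Bool) → V) : ℝ :=
  Real.sqrt ((1 / (2 : ℝ) ^ s) * ∑ ε, ‖f ε‖ ^ 2)

/-- The `i`-th Fourier coefficient `E_η [η_i f(η)]`. -/
noncomputable def coef {s : ℕ} {V : Type*} [AddCommGroup V] [Module ℝ V]
    (f : (Fin s → Bool) → V) (i : Fin s) : V :=
  (1 / (2 : ℝ) ^ s) • ∑ η, sgn (η i) • f η

/-- The Rademacher projection `(Rad f)(ε) = ∑_i ε_i E_η [η_i f(η)]`. -/
noncomputable def rad {s : ℕ} {V : Type*} [AddCommGroup V] [Module ℝ V]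
    (f : (Fin s → Bool) → V) (ε : Fin s → Bool) : V :=
  ∑ i, sgn (ε i) • coef f i

/-- The dual of `X` has Rademacher cotype `r` with constant `A`. -/
def DualCotype (X : Type*) [NormedAddCommGroup X] [NormedSpace ℝ X] (r A : ℝ) : Prop :=
  ∀ (n : ℕ) (y : Fin n → StrongDual ℝ X),
    (∑ i, ‖y i‖ ^ r) ^ (1 / r) ≤
      A * Real.sqrt ((1 / (2 : ℝ) ^ n) * ∑ ε : Fin n → Bool, ‖∑ i, sgn (ε i) • y i‖ ^ 2)

lemma sgn_mul_self (b : Bool) : sgn b * sgn b = 1 := by
  cases b <;> simp [sgn]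

lemma abs_sgn (b : Bool) : |sgn b| = 1 := by
  cases b <;> simp [sgn]

lemma w_pos (s : ℕ) : 0 < (1 / (2 : ℝ) ^ s) := by positivity

lemma card_cube (s : ℕ) : (Finset.univ : Finset (Fin s → Bool)).card = 2 ^ s := by
  simp

/-- Cauchy-Schwarz for averages on the cube. -/
lemma avg_mul_le {s : ℕ} (a b : (Fin s → Bool) → ℝ) :
    (1 / (2 : ℝ) ^ s) * ∑ ε, a ε * b ε ≤
      Real.sqrt ((1 / (2 : ℝ) ^ s) * ∑ ε, a ε ^ 2) * Real.sqrt ((1 / (2 : ℝ) ^ s) * ∑ ε, b ε ^ 2) := by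
  set w : ℝ := 1 / (2 : ℝ) ^ s with hw
  have hw0 : 0 < w := w_pos s
  rw [← Real.sqrt_mul (by positivity)]
  apply Real.le_sqrt_of_sq_le
  have h := Finset.sum_mul_sq_le_sq_mul_sq (Finset.univ : Finset (Fin s → Bool)) a b
  calc (w * ∑ ε, a ε * b ε) ^ 2 = w ^ 2 * (∑ ε, a ε * b ε) ^ 2 := by ring
    _ ≤ w ^ 2 * ((∑ ε, a ε ^ 2) * ∑ ε, b ε ^ 2) :=
        mul_le_mul_of_nonneg_left h (by positivity)
    _ = w * (∑ ε, a ε ^ 2) * (w * ∑ ε, b ε ^ 2) := by ring

/-- The Hahn-Banach selection. -/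
lemma exists_dual {X : Type*} [NormedAddCommGroup X] [NormedSpace ℝ X] {s : ℕ} (x : Fin s → X)
    {C : ℝ} (hC : 0 ≤ C) (hlow : ∀ a : Fin s → ℝ, ∑ i, |a i| ≤ C * ‖∑ i, a i • x i‖)
    (θ : Fin s → Bool) :
    ∃ y : StrongDual ℝ X, ‖y‖ ≤ C ∧ ∀ i, y (x i) = sgn (θ i) := by
  classical
  let φ : (Fin s → ℝ) →ₗ[ℝ] X :=
    { toFun := fun a => ∑ i, a i • x i
      map_add' := by
        intro a b
        simp [add_smul, Finset.sum_add_distrib]
      map_smul' := by
        intro c a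
        simp [Finset.smul_sum, mul_smul] }
  have hφ : ∀ a, φ a = ∑ i, a i • x i := fun _ => rfl
  have hinj : Function.Injective φ := by
    rw [← LinearMap.ker_eq_bot, LinearMap.ker_eq_bot']
    intro a ha
    have h := hlow a
    rw [← hφ, ha, norm_zero, mul_zero] at h
    have h0 : ∑ i, |a i| = 0 :=
      le_antisymm h (Finset.sum_nonneg fun i _ => abs_nonneg _)
    funext i
    have := (Finset.sum_eq_zero_iff_of_nonneg (fun i _ => abs_nonneg (a i))).1 h0 i
      (Finset.mem_univ i)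
    simpa using this
  let e : (Fin s → ℝ) ≃ₗ[ℝ] LinearMap.range φ := LinearEquiv.ofInjective φ hinj
  let ℓ : (Fin s → ℝ) →ₗ[ℝ] ℝ :=
    { toFun := fun a => ∑ i, a i * sgn (θ i)
      map_add' := by
        intro a b
        simp [add_mul, Finset.sum_add_distrib]
      map_smul' := by
        intro c a
        simp [Finset.mul_sum, mul_assoc] }
  have hℓ : ∀ a, ℓ a = ∑ i, a i * sgn (θ i) := fun _ => rfl
  let f₀ : LinearMap.range φ →ₗ[ℝ] ℝ := ℓ ∘ₗ e.symm.toLinearMap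
  have hf₀ : ∀ a, f₀ (e a) = ℓ a := by
    intro a
    simp [f₀]
  have hbound : ∀ v : LinearMap.range φ, ‖f₀ v‖ ≤ C * ‖v‖ := by
    intro v
    obtain ⟨a, rfl⟩ := e.surjective v
    rw [hf₀, hℓ]
    have hnorm : ‖e a‖ = ‖∑ i, a i • x i‖ := rfl
    rw [hnorm, Real.norm_eq_abs]
    refine le_trans ?_ (hlow a)
    refine le_trans (Finset.abs_sum_le_sum_abs _ _) ?_
    refine le_of_eq (Finset.sum_congr rfl fun i _ => ?_)
    rw [abs_mul, abs_sgn, mul_one]
  let f : StrongDual ℝ (LinearMap.range φ) := f₀.mkContinuous C hbound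
  obtain ⟨g, hg, hgn⟩ := exists_extension_norm_eq (LinearMap.range φ) f
  refine ⟨g, ?_, ?_⟩
  · rw [hgn]
    exact LinearMap.mkContinuous_norm_le _ hC _
  · intro i
    have hxi : φ (Pi.single i 1) = x i := by
      rw [hφ]
      rw [Finset.sum_eq_single i]
      · simp
      · intro j _ hj
        simp [Pi.single_eq_of_ne hj]
      · simp
    have h1 : ((e (Pi.single i 1) : LinearMap.range φ) : X) = x i := by
      simpa [e] using hxi
    have h2 := hg (e (Pi.single i 1))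
    rw [h1] at h2
    rw [h2]
    change f₀ (e (Pi.single i 1)) = _
    rw [hf₀, hℓ, Finset.sum_eq_single i]
    · simp
    · intro j _ hj
      simp [Pi.single_eq_of_ne hj]
    · simp

/-- The coefficient of a selection evaluates to one at `x i`. -/
lemma coef_apply {X : Type*} [NormedAddCommGroup X] [NormedSpace ℝ X] {s : ℕ}
    (Y : (Fin s → Bool) → StrongDual ℝ X) (v : X) (i : Fin s) :
    (coef Y i) v = (1 / (2 : ℝ) ^ s) * ∑ η, sgn (η i) * (Y η) v := by
  simp [coef]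

/-- Self-adjointness of the Rademacher projection. -/
lemma pairing_rad {X : Type*} [NormedAddCommGroup X] [NormedSpace ℝ X] {s : ℕ}
    (Y : (Fin s → Bool) → StrongDual ℝ X) (g : (Fin s → Bool) → X) :
    (1 / (2 : ℝ) ^ s) * ∑ ε, (rad Y ε) (g ε) = (1 / (2 : ℝ) ^ s) * ∑ ε, (Y ε) (rad g ε) := by
  set w : ℝ := 1 / (2 : ℝ) ^ s with hw
  have h1 : ∀ ε, (rad Y ε) (g ε) =
      ∑ η, ∑ i, w * sgn (ε i) * sgn (η i) * (Y η) (g ε) := by
    intro ε
    have h : (rad Y ε) (g ε) = ∑ i, sgn (ε i) * (coef Y i) (g ε) := by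
      simp [rad]
    rw [h, Finset.sum_comm]
    refine Finset.sum_congr rfl fun i _ => ?_
    rw [coef_apply, ← hw, Finset.mul_sum, Finset.mul_sum]
    refine Finset.sum_congr rfl fun η _ => ?_
    ring
  have h2 : ∀ η, (Y η) (rad g η) =
      ∑ ε, ∑ i, w * sgn (ε i) * sgn (η i) * (Y η) (g ε) := by
    intro η
    have h : (Y η) (rad g η) = ∑ i, sgn (η i) * (Y η) (coef g i) := by
      simp [rad, map_sum, map_smul]
    rw [h, Finset.sum_comm]
    refine Finset.sum_congr rfl fun i _ => ?_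
    have h3 : (Y η) (coef g i) = w * ∑ ε, sgn (ε i) * (Y η) (g ε) := by
      simp [coef, map_sum, map_smul, hw]
    rw [h3, Finset.mul_sum, Finset.mul_sum]
    refine Finset.sum_congr rfl fun ε _ => ?_
    ring
  simp only [h1, h2]
  rw [Finset.sum_comm]

/-- The approximate norming vector. -/
lemma exists_norming {X : Type*} [NormedAddCommGroup X] [NormedSpace ℝ X] (ψ : StrongDual ℝ X)
    {δ : ℝ} (hδ : 0 < δ) : ∃ v : X, ‖v‖ ≤ ‖ψ‖ ∧ ‖ψ‖ ^ 2 - δ ≤ ψ v := by
  by_cases h0 : ψ = 0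
  · refine ⟨0, by simp, ?_⟩
    simp [h0]
    exact hδ.le
  have hpos : 0 < ‖ψ‖ := norm_pos_iff.2 h0
  set η : ℝ := min (δ / ‖ψ‖) (‖ψ‖ / 2) with hη
  have hη0 : 0 < η := lt_min (by positivity) (by positivity)
  have hlt : ‖ψ‖ - η < ‖ψ‖ := by linarith
  have hnn : (0 : ℝ) ≤ ‖ψ‖ - η := by
    have : η ≤ ‖ψ‖ / 2 := min_le_right _ _
    linarith
  obtain ⟨u, hu, hu2⟩ := ψ.exists_lt_apply_of_lt_opNorm hlt
  have hu2' : ‖ψ‖ - η < ‖ψ u‖ := hu2
  rw [Real.norm_eq_abs] at hu2'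
  have hu' : ‖u‖ ≤ 1 := hu.le
  have hfin : ∀ w : X, ‖w‖ ≤ 1 → ‖ψ‖ - η < ψ w →
      ∃ v : X, ‖v‖ ≤ ‖ψ‖ ∧ ‖ψ‖ ^ 2 - δ ≤ ψ v := by
    intro w hw hw2
    refine ⟨‖ψ‖ • w, ?_, ?_⟩
    · rw [norm_smul, Real.norm_eq_abs, abs_of_pos hpos]
      nlinarith
    · rw [map_smul, smul_eq_mul]
      have h1 : η ≤ δ / ‖ψ‖ := min_le_left _ _
      have h2 : ‖ψ‖ * η ≤ δ := by
        calc ‖ψ‖ * η ≤ ‖ψ‖ * (δ / ‖ψ‖) := mul_le_mul_of_nonneg_left h1 hpos.le
          _ = δ := by field_simp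
      nlinarith
  rcases abs_cases (ψ u) with ⟨h, _⟩ | ⟨h, _⟩
  · exact hfin u hu' (by linarith)
  · refine hfin (-u) (by simpa using hu') ?_
    rw [map_neg]
    linarith


/-! ### Walsh analysis on the cube -/

section Walsh

variable {s : ℕ}

/-- The Walsh function of a set of coordinates. -/
noncomputable def chi (S : Finset (Fin s)) (ε : Fin s → Bool) : ℝ := ∏ i ∈ S, sgn (ε i)

lemma sum_prod_bool (h : Fin s → Bool → ℝ) :
    ∑ ε : Fin s → Bool, ∏ i, h i (ε i) = ∏ i, ∑ b, h i b := by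
  have h1 := Finset.prod_univ_sum (fun _ : Fin s => (Finset.univ : Finset Bool)) h
  rw [Fintype.piFinset_univ] at h1
  exact h1.symm

lemma chi_eq (S : Finset (Fin s)) (ε : Fin s → Bool) :
    chi S ε = ∏ i, (if i ∈ S then sgn (ε i) else 1) := by
  unfold chi
  rw [Finset.prod_ite_mem]
  simp

lemma sgn_true : sgn true = 1 := by simp [sgn]
lemma sgn_false : sgn false = -1 := by simp [sgn]

lemma ortho (S T : Finset (Fin s)) :
    ∑ ε, chi S ε * chi T ε = if S = T then (2 : ℝ) ^ s else 0 := by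
  have h1 : ∀ ε : Fin s → Bool, chi S ε * chi T ε =
      ∏ i, ((if i ∈ S then sgn (ε i) else 1) * (if i ∈ T then sgn (ε i) else 1)) := by
    intro ε
    rw [chi_eq, chi_eq, Finset.prod_mul_distrib]
  simp only [h1]
  rw [sum_prod_bool (fun i b => (if i ∈ S then sgn b else 1) * (if i ∈ T then sgn b else 1))]
  split_ifs with hST
  · subst hST
    have : ∀ i : Fin s, ∑ b : Bool, ((if i ∈ S then sgn b else 1) * (if i ∈ S then sgn b else 1))
        = (2 : ℝ) := by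
      intro i
      rw [Fintype.sum_bool]
      by_cases hi : i ∈ S <;> simp [hi, sgn_true, sgn_false] <;> norm_num
    rw [Finset.prod_congr rfl (fun i _ => this i), Finset.prod_const, Finset.card_univ,
      Fintype.card_fin]
  · obtain ⟨i, hi⟩ : ∃ i, ¬ (i ∈ S ↔ i ∈ T) := by
      by_contra hcon
      apply hST
      ext i
      by_contra hi
      exact hcon ⟨i, hi⟩
    apply Finset.prod_eq_zero (Finset.mem_univ i)
    rw [Fintype.sum_bool]
    by_cases h1 : i ∈ S <;> by_cases h2 : i ∈ T <;> simp_all [sgn_true, sgn_false]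

/-- The kernel of the noise operator. -/
noncomputable def ker (ρ : ℝ) (ε ξ : Fin s → Bool) : ℝ := ∏ i, (1 + ρ * (sgn (ε i) * sgn (ξ i)))

lemma ker_eq (ρ : ℝ) (ε ξ : Fin s → Bool) :
    ker ρ ε ξ = ∑ S : Finset (Fin s), ρ ^ S.card * (chi S ε * chi S ξ) := by
  unfold ker
  rw [Finset.prod_one_add, Finset.powerset_univ]
  refine Finset.sum_congr rfl fun S _ => ?_
  rw [Finset.prod_mul_distrib, Finset.prod_mul_distrib, Finset.prod_const]
  rfl

lemma ker_nonneg {ρ : ℝ} (hρ : |ρ| ≤ 1) (ε ξ : Fin s → Bool) : 0 ≤ ker ρ ε ξ := by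
  unfold ker
  refine Finset.prod_nonneg fun i _ => ?_
  have h : |ρ * (sgn (ε i) * sgn (ξ i))| ≤ 1 := by
    rw [abs_mul, abs_mul, abs_sgn, abs_sgn]
    simpa using hρ
  have := (abs_le.1 h).1
  linarith

lemma ker_comm (ρ : ℝ) (ε ξ : Fin s → Bool) : ker ρ ε ξ = ker ρ ξ ε := by
  unfold ker
  refine Finset.prod_congr rfl fun i _ => ?_
  ring

lemma ker_sum (ρ : ℝ) (ε : Fin s → Bool) : ∑ ξ, ker ρ ε ξ = (2 : ℝ) ^ s := by
  unfold ker
  rw [sum_prod_bool (fun i b => 1 + ρ * (sgn (ε i) * sgn b))]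
  have : ∀ i : Fin s, ∑ b : Bool, (1 + ρ * (sgn (ε i) * sgn b)) = (2 : ℝ) := by
    intro i
    rw [Fintype.sum_bool, sgn_true, sgn_false]
    ring
  rw [Finset.prod_congr rfl (fun i _ => this i), Finset.prod_const, Finset.card_univ,
    Fintype.card_fin]

lemma ker_one (ε ξ : Fin s → Bool) : ker 1 ε ξ = if ξ = ε then (2 : ℝ) ^ s else 0 := by
  unfold ker
  split_ifs with h
  · subst h
    have : ∀ i : Fin s, 1 + 1 * (sgn (ξ i) * sgn (ξ i)) = (2 : ℝ) := by
      intro i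
      rw [sgn_mul_self]
      norm_num
    rw [Finset.prod_congr rfl (fun i _ => this i), Finset.prod_const, Finset.card_univ,
      Fintype.card_fin]
  · obtain ⟨i, hi⟩ : ∃ i, ξ i ≠ ε i := by
      by_contra hcon
      apply h
      funext i
      by_contra hi
      exact hcon ⟨i, hi⟩
    apply Finset.prod_eq_zero (Finset.mem_univ i)
    cases h1 : ε i <;> cases h2 : ξ i <;> simp_all [sgn_true, sgn_false]

variable {V : Type*} [NormedAddCommGroup V] [NormedSpace ℝ V]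

/-- The noise operator. -/
noncomputable def noise (ρ : ℝ) (f : (Fin s → Bool) → V) (ε : Fin s → Bool) : V :=
  (1 / (2 : ℝ) ^ s) • ∑ ξ, ker ρ ε ξ • f ξ

/-- The noise operator is a contraction on `L_2(V)`. -/
lemma noise_contract {ρ : ℝ} (hρ : |ρ| ≤ 1) (f : (Fin s → Bool) → V) :
    nL2 (noise ρ f) ≤ nL2 f := by
  unfold nL2
  apply Real.sqrt_le_sqrt
  apply mul_le_mul_of_nonneg_left _ (w_pos s).le
  set w : ℝ := 1 / (2 : ℝ) ^ s with hw
  have hw0 : 0 < w := w_pos s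
  have hww : w * (2 : ℝ) ^ s = 1 := by
    rw [hw]
    field_simp
  have hker : ∀ ε ξ : Fin s → Bool, 0 ≤ ker ρ ε ξ := fun ε ξ => ker_nonneg hρ ε ξ
  have h1 : ∀ ε, ‖noise ρ f ε‖ ^ 2 ≤ ∑ ξ, w * ker ρ ε ξ * ‖f ξ‖ ^ 2 := by
    intro ε
    have h2 : ‖noise ρ f ε‖ ≤ ∑ ξ, w * ker ρ ε ξ * ‖f ξ‖ := by
      unfold noise
      rw [norm_smul, Real.norm_eq_abs, abs_of_pos hw0]
      calc w * ‖∑ ξ, ker ρ ε ξ • f ξ‖ ≤ w * ∑ ξ, ‖ker ρ ε ξ • f ξ‖ :=
            mul_le_mul_of_nonneg_left (norm_sum_le _ _) hw0.le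
        _ = ∑ ξ, w * ker ρ ε ξ * ‖f ξ‖ := by
            rw [Finset.mul_sum]
            refine Finset.sum_congr rfl fun ξ _ => ?_
            rw [norm_smul, Real.norm_eq_abs, abs_of_nonneg (hker ε ξ)]
            ring
    have h3 : (∑ ξ, w * ker ρ ε ξ * ‖f ξ‖) ^ 2 ≤
        (∑ ξ, w * ker ρ ε ξ) * ∑ ξ, w * ker ρ ε ξ * ‖f ξ‖ ^ 2 := by
      apply Finset.sum_sq_le_sum_mul_sum_of_sq_le_mul
      · intro ξ _
        exact mul_nonneg hw0.le (hker ε ξ)
      · intro ξ _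
        exact mul_nonneg (mul_nonneg hw0.le (hker ε ξ)) (by positivity)
      · intro ξ _
        exact le_of_eq (by ring)
    have h4 : ∑ ξ, w * ker ρ ε ξ = 1 := by
      rw [← Finset.mul_sum, ker_sum, hww]
    rw [h4, one_mul] at h3
    exact le_trans (pow_le_pow_left₀ (norm_nonneg _) h2 2) h3
  calc ∑ ε, ‖noise ρ f ε‖ ^ 2 ≤ ∑ ε, ∑ ξ, w * ker ρ ε ξ * ‖f ξ‖ ^ 2 :=
        Finset.sum_le_sum fun ε _ => h1 ε
    _ = ∑ ξ, ∑ ε, w * ker ρ ξ ε * ‖f ξ‖ ^ 2 := by
        rw [Finset.sum_comm]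
        refine Finset.sum_congr rfl fun ξ _ => Finset.sum_congr rfl fun ε _ => ?_
        rw [ker_comm]
    _ = ∑ ξ, ‖f ξ‖ ^ 2 := by
        refine Finset.sum_congr rfl fun ξ _ => ?_
        rw [← Finset.sum_mul, ← Finset.mul_sum, ker_sum, hww, one_mul]

/-- The Walsh coefficient. -/
noncomputable def fhat (f : (Fin s → Bool) → V) (S : Finset (Fin s)) : V :=
  (1 / (2 : ℝ) ^ s) • ∑ ξ, chi S ξ • f ξ

/-- The Fourier multiplier with a symbol depending only on the level. -/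
noncomputable def mult (c : ℕ → ℝ) (f : (Fin s → Bool) → V) (ε : Fin s → Bool) : V :=
  ∑ S : Finset (Fin s), (c S.card * chi S ε) • fhat f S

lemma noise_eq (ρ : ℝ) (f : (Fin s → Bool) → V) (ε : Fin s → Bool) :
    noise ρ f ε = mult (fun j => ρ ^ j) f ε := by
  unfold noise mult fhat
  simp only [ker_eq, Finset.sum_smul, Finset.smul_sum, smul_smul]
  rw [Finset.sum_comm]
  refine Finset.sum_congr rfl fun S _ => Finset.sum_congr rfl fun ξ _ => ?_
  congr 1
  ring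

lemma mult_one (f : (Fin s → Bool) → V) (ε : Fin s → Bool) :
    mult (fun _ => 1) f ε = f ε := by
  have h := noise_eq 1 f ε
  simp only [one_pow] at h
  rw [← h]
  unfold noise
  simp only [ker_one, ite_smul, zero_smul]
  rw [Finset.sum_ite_eq' Finset.univ ε (fun ξ => (2 : ℝ) ^ s • f ξ)]
  simp [smul_smul]

lemma coef_eq_fhat (f : (Fin s → Bool) → V) (i : Fin s) : coef f i = fhat f {i} := by
  unfold coef fhat chi
  simp

lemma rad_eq (f : (Fin s → Bool) → V) (ε : Fin s → Bool) :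
    rad f ε = mult (fun j => if j = 1 then 1 else 0) f ε := by
  classical
  unfold rad mult
  have h1 : ∀ S : Finset (Fin s), ((if S.card = 1 then (1 : ℝ) else 0) * chi S ε) • fhat f S =
      if S.card = 1 then chi S ε • fhat f S else 0 := by
    intro S
    split_ifs <;> simp
  simp only [h1]
  rw [← Finset.sum_filter]
  have h2 : (Finset.univ.filter (fun S : Finset (Fin s) => S.card = 1)) =
      Finset.univ.image (fun i : Fin s => ({i} : Finset (Fin s))) := by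
    ext S
    simp only [Finset.mem_filter, Finset.mem_univ, true_and, Finset.mem_image]
    rw [Finset.card_eq_one]
    constructor
    · rintro ⟨i, rfl⟩
      exact ⟨i, rfl⟩
    · rintro ⟨i, rfl⟩
      exact ⟨i, rfl⟩
  rw [h2, Finset.sum_image (fun a _ b _ h => Finset.singleton_injective h)]
  refine Finset.sum_congr rfl fun i _ => ?_
  rw [coef_eq_fhat]
  simp [chi]

lemma mult_sub (c d : ℕ → ℝ) (f : (Fin s → Bool) → V) (ε : Fin s → Bool) :
    mult (fun j => c j - d j) f ε = mult c f ε - mult d f ε := by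
  unfold mult
  rw [← Finset.sum_sub_distrib]
  refine Finset.sum_congr rfl fun S _ => ?_
  rw [sub_mul, sub_smul]

lemma mult_sum {ι : Type*} (R : Finset ι) (u : ι → ℝ) (e : ι → ℕ → ℝ)
    (f : (Fin s → Bool) → V) (ε : Fin s → Bool) :
    mult (fun j => ∑ k ∈ R, u k * e k j) f ε = ∑ k ∈ R, u k • mult (e k) f ε := by
  unfold mult
  simp only [Finset.smul_sum, smul_smul, Finset.sum_mul, Finset.sum_smul]
  rw [Finset.sum_comm]
  refine Finset.sum_congr rfl fun k _ => Finset.sum_congr rfl fun S _ => ?_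
  congr 1
  ring

lemma map_mult {H : Type*} [NormedAddCommGroup H] [NormedSpace ℝ H] (a : V →ₗ[ℝ] H) (c : ℕ → ℝ)
    (f : (Fin s → Bool) → V) (ε : Fin s → Bool) :
    a (mult c f ε) = mult c (fun ξ => a (f ξ)) ε := by
  unfold mult fhat
  simp [map_sum, map_smul]

/-- Minkowski in `L_2`. -/
lemma nL2_add_le (f g : (Fin s → Bool) → V) :
    nL2 (fun ε => f ε + g ε) ≤ nL2 f + nL2 g := by
  have hf : 0 ≤ (1 / (2 : ℝ) ^ s) * ∑ ε, ‖f ε‖ ^ 2 :=
    mul_nonneg (w_pos s).le (Finset.sum_nonneg fun ε _ => by positivity)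
  have hg : 0 ≤ (1 / (2 : ℝ) ^ s) * ∑ ε, ‖g ε‖ ^ 2 :=
    mul_nonneg (w_pos s).le (Finset.sum_nonneg fun ε _ => by positivity)
  have hf' : nL2 f ^ 2 = (1 / (2 : ℝ) ^ s) * ∑ ε, ‖f ε‖ ^ 2 := Real.sq_sqrt hf
  have hg' : nL2 g ^ 2 = (1 / (2 : ℝ) ^ s) * ∑ ε, ‖g ε‖ ^ 2 := Real.sq_sqrt hg
  have hfn : 0 ≤ nL2 f := Real.sqrt_nonneg _
  have hgn : 0 ≤ nL2 g := Real.sqrt_nonneg _
  unfold nL2 at *
  apply Real.sqrt_le_iff.2
  refine ⟨by positivity, ?_⟩
  have h1 : ∑ ε, ‖f ε + g ε‖ ^ 2 ≤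
      ∑ ε, ‖f ε‖ ^ 2 + 2 * ∑ ε, ‖f ε‖ * ‖g ε‖ + ∑ ε, ‖g ε‖ ^ 2 := by
    rw [Finset.mul_sum, ← Finset.sum_add_distrib, ← Finset.sum_add_distrib]
    refine Finset.sum_le_sum fun ε _ => ?_
    have := pow_le_pow_left₀ (norm_nonneg _) (norm_add_le (f ε) (g ε)) 2
    nlinarith
  have h2 : (1 / (2 : ℝ) ^ s) * ∑ ε, ‖f ε‖ * ‖g ε‖ ≤
      Real.sqrt ((1 / (2 : ℝ) ^ s) * ∑ ε, ‖f ε‖ ^ 2) *
        Real.sqrt ((1 / (2 : ℝ) ^ s) * ∑ ε, ‖g ε‖ ^ 2) :=
    avg_mul_le (fun ε => ‖f ε‖) (fun ε => ‖g ε‖)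
  have h3 := mul_le_mul_of_nonneg_left h1 (w_pos s).le
  nlinarith

lemma nL2_smul (u : ℝ) (f : (Fin s → Bool) → V) :
    nL2 (fun ε => u • f ε) = |u| * nL2 f := by
  unfold nL2
  have h : (1 / (2 : ℝ) ^ s) * ∑ ε, ‖u • f ε‖ ^ 2 =
      u ^ 2 * ((1 / (2 : ℝ) ^ s) * ∑ ε, ‖f ε‖ ^ 2) := by
    simp only [norm_smul, Real.norm_eq_abs, mul_pow, sq_abs]
    rw [← Finset.mul_sum]
    ring
  rw [h, Real.sqrt_mul (sq_nonneg u), Real.sqrt_sq_eq_abs]

lemma nL2_nonneg (f : (Fin s → Bool) → V) : 0 ≤ nL2 f := Real.sqrt_nonneg _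

lemma nL2_sum {ι : Type*} (R : Finset ι) (u : ι → ℝ) (F : ι → (Fin s → Bool) → V) :
    nL2 (fun ε => ∑ k ∈ R, u k • F k ε) ≤ ∑ k ∈ R, |u k| * nL2 (F k) := by
  classical
  induction R using Finset.induction_on with
  | empty =>
    simp [nL2]
  | insert k R hk ih =>
    simp only [Finset.sum_insert hk]
    refine le_trans (nL2_add_le (fun ε => u k • F k ε) (fun ε => ∑ j ∈ R, u j • F j ε)) ?_
    rw [nL2_smul]
    linarith

lemma nL2_le_of_norm_le {W : Type*} [NormedAddCommGroup W] (f : (Fin s → Bool) → V)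
    (g : (Fin s → Bool) → W) {D : ℝ} (hD : 0 ≤ D) (h : ∀ ε, ‖f ε‖ ≤ D * ‖g ε‖) :
    nL2 f ≤ D * nL2 g := by
  unfold nL2
  rw [← Real.sqrt_sq hD, ← Real.sqrt_mul (sq_nonneg D)]
  apply Real.sqrt_le_sqrt
  rw [mul_left_comm]
  apply mul_le_mul_of_nonneg_left _ (w_pos s).le
  rw [Finset.mul_sum]
  refine Finset.sum_le_sum fun ε _ => ?_
  have := pow_le_pow_left₀ (norm_nonneg _) (h ε) 2
  rw [mul_pow] at this
  exact this

section Hilbert

variable {H : Type*} [NormedAddCommGroup H] [InnerProductSpace ℝ H]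

lemma mult_sq (c : ℕ → ℝ) (g : (Fin s → Bool) → H) :
    (1 / (2 : ℝ) ^ s) * ∑ ε, ‖mult c g ε‖ ^ 2 = ∑ S : Finset (Fin s), c S.card ^ 2 * ‖fhat g S‖ ^ 2 := by
  classical
  have h1 : ∀ ε, ‖mult c g ε‖ ^ 2 = ∑ S : Finset (Fin s), ∑ T : Finset (Fin s),
      c S.card * c T.card * (inner ℝ (fhat g S) (fhat g T)) * (chi S ε * chi T ε) := by
    intro ε
    rw [← real_inner_self_eq_norm_sq]
    unfold mult
    rw [sum_inner]
    refine Finset.sum_congr rfl fun S _ => ?_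
    rw [inner_sum]
    refine Finset.sum_congr rfl fun T _ => ?_
    rw [real_inner_smul_left, real_inner_smul_right]
    ring
  simp only [h1]
  rw [Finset.sum_comm, Finset.mul_sum]
  refine Finset.sum_congr rfl fun S _ => ?_
  rw [Finset.sum_comm]
  have h2 : ∀ T : Finset (Fin s), ∑ ε, c S.card * c T.card * (inner ℝ (fhat g S) (fhat g T)) *
      (chi S ε * chi T ε) = if S = T then
        c S.card * c T.card * (inner ℝ (fhat g S) (fhat g T)) * (2 : ℝ) ^ s else 0 := by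
    intro T
    rw [← Finset.mul_sum, ortho]
    split_ifs <;> simp
  simp only [h2]
  rw [Finset.sum_ite_eq Finset.univ S]
  simp only [Finset.mem_univ, if_true]
  rw [real_inner_self_eq_norm_sq]
  field_simp

lemma hilbert_bound (c : ℕ → ℝ) {η : ℝ} (hη : 0 ≤ η) (hc : ∀ j, |c j| ≤ η)
    (g : (Fin s → Bool) → H) : nL2 (mult c g) ≤ η * nL2 g := by
  have h1 : nL2 (mult c g) = Real.sqrt (∑ S : Finset (Fin s), c S.card ^ 2 * ‖fhat g S‖ ^ 2) := by
    unfold nL2
    rw [mult_sq]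
  have h2 : nL2 g = Real.sqrt (∑ S : Finset (Fin s), ‖fhat g S‖ ^ 2) := by
    have h3 := mult_sq (fun _ => 1) g
    simp only [mult_one, one_pow, one_mul] at h3
    unfold nL2
    rw [h3]
  rw [h1, h2, ← Real.sqrt_sq hη, ← Real.sqrt_mul (sq_nonneg η)]
  apply Real.sqrt_le_sqrt
  rw [Finset.mul_sum]
  refine Finset.sum_le_sum fun S _ => ?_
  apply mul_le_mul_of_nonneg_right _ (by positivity)
  exact sq_le_sq' (by linarith [(abs_le.1 (hc S.card)).1]) (abs_le.1 (hc S.card)).2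

end Hilbert

/-- **Pisier's logarithmic bound.** If `V` is `2^m`-isomorphic to a Hilbert space, then the
Rademacher projection on `L_2({-1,1}^s; V)` has norm at most `3 m`. -/
theorem rad_bound {H : Type*} [NormedAddCommGroup H] [InnerProductSpace ℝ H] (a : V →ₗ[ℝ] H)
    {m : ℕ} (hm : 0 < m) (hlow : ∀ v, ‖v‖ ≤ ‖a v‖) (hup : ∀ v, ‖a v‖ ≤ (2 : ℝ) ^ m * ‖v‖)
    (f : (Fin s → Bool) → V) : nL2 (rad f) ≤ 3 * (m : ℝ) * nL2 f := by
  classical
  open Vale.Agent.Lib.P047b in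
  -- the symbol of the combination of noise operators
  let u : ℕ → ℝ := fun k => 2 * ((-1 : ℝ) ^ k * lam m k)
  let x : ℕ → ℝ := fun k => Real.sin (theta m k) / 2
  let R : Finset ℕ := Finset.range (2 * m)
  let d : ℕ → ℝ := fun j => ∑ k ∈ R, u k * (x k) ^ j
  let δ : ℕ → ℝ := fun j => if j = 1 then 1 else 0
  let e : ℕ → ℝ := fun j => d j - δ j
  have hx : ∀ k, |x k| ≤ 1 / 2 := by
    intro k
    have : |Real.sin (theta m k)| ≤ 1 := Real.abs_sin_le_one _
    simp only [x, abs_div, abs_two]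
    linarith
  have hu : ∀ k ∈ R, |u k| = 2 * lam m k := by
    intro k hk
    have hk' : k < 2 * m := Finset.mem_range.1 hk
    simp only [u, abs_mul, abs_pow, abs_neg, abs_one, one_pow, one_mul, abs_two]
    rw [abs_of_pos (lam_pos hm hk')]
  have hsumu : ∑ k ∈ R, |u k| = 2 * (m : ℝ) := by
    rw [Finset.sum_congr rfl hu, ← Finset.mul_sum, sum_lam hm]
  -- the moments
  have hd_low : ∀ j, j ≤ m → d j = δ j := by
    intro j hj
    have h1 : ∀ k, u k * x k ^ j =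
        (2 : ℝ) * (1 / 2) ^ j * ((-1 : ℝ) ^ k * lam m k * Real.sin (theta m k) ^ j) := by
      intro k
      simp only [u, x, div_pow]
      field_simp
      simp
    simp only [d, h1]
    rw [← Finset.mul_sum, moment hm hj]
    simp only [δ]
    split_ifs with h
    · subst h
      norm_num
    · simp
  have he_low : ∀ j, j ≤ m → e j = 0 := by
    intro j hj
    simp only [e]
    rw [hd_low j hj]
    ring
  have he_high : ∀ j, m < j → |e j| ≤ (m : ℝ) / (2 : ℝ) ^ m := by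
    intro j hj
    have hj1 : j ≠ 1 := by omega
    have h0 : e j = d j := by
      simp [e, δ, hj1]
    rw [h0]
    have h1 : |d j| ≤ ∑ k ∈ R, |u k| * (1 / 2) ^ j := by
      refine le_trans (Finset.abs_sum_le_sum_abs _ _) (Finset.sum_le_sum fun k _ => ?_)
      rw [abs_mul, abs_pow]
      exact mul_le_mul_of_nonneg_left (pow_le_pow_left₀ (abs_nonneg _) (hx k) j) (abs_nonneg _)
    rw [← Finset.sum_mul, hsumu] at h1
    refine le_trans h1 ?_
    have h2 : ((1 : ℝ) / 2) ^ j ≤ (1 / 2) ^ (m + 1) :=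
      pow_le_pow_of_le_one (by norm_num) (by norm_num) hj
    have h3 : ((1 : ℝ) / 2) ^ (m + 1) = 1 / (2 * (2 : ℝ) ^ m) := by
      rw [pow_succ, one_div_pow]
      field_simp
    calc 2 * (m : ℝ) * (1 / 2) ^ j ≤ 2 * (m : ℝ) * (1 / 2) ^ (m + 1) :=
          mul_le_mul_of_nonneg_left h2 (by positivity)
      _ = (m : ℝ) / (2 : ℝ) ^ m := by
          rw [h3]
          field_simp
  have he : ∀ j, |e j| ≤ (m : ℝ) / (2 : ℝ) ^ m := by
    intro j
    rcases le_or_gt j m with hj | hj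
    · rw [he_low j hj, abs_zero]
      positivity
    · exact he_high j hj
  -- the decomposition
  have hdec : ∀ ε, rad f ε = mult d f ε - mult e f ε := by
    intro ε
    rw [rad_eq]
    have h1 := mult_sub d δ f ε
    have h2 : (fun j => d j - δ j) = e := rfl
    rw [h2] at h1
    rw [h1]
    simp only [δ]
    abel
  have hA : nL2 (mult d f) ≤ 2 * (m : ℝ) * nL2 f := by
    have h1 : mult d f = fun ε => ∑ k ∈ R, u k • noise (x k) f ε := by
      funext ε
      have := mult_sum R u (fun k j => x k ^ j) f ε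
      simp only [← noise_eq] at this
      exact this
    rw [h1]
    refine le_trans (nL2_sum R u (fun k => noise (x k) f)) ?_
    have h2 : ∀ k ∈ R, |u k| * nL2 (noise (x k) f) ≤ |u k| * nL2 f := by
      intro k _
      apply mul_le_mul_of_nonneg_left _ (abs_nonneg _)
      apply noise_contract
      linarith [hx k]
    refine le_trans (Finset.sum_le_sum h2) ?_
    rw [← Finset.sum_mul, hsumu]
  have hB : nL2 (mult e f) ≤ (m : ℝ) * nL2 f := by
    have h1 : nL2 (mult e f) ≤ 1 * nL2 (mult e (fun ξ => a (f ξ))) := by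
      apply nL2_le_of_norm_le _ _ zero_le_one
      intro ε
      rw [one_mul, ← map_mult]
      exact hlow _
    have h2 : nL2 (mult e (fun ξ => a (f ξ))) ≤ ((m : ℝ) / (2 : ℝ) ^ m) * nL2 (fun ξ => a (f ξ)) :=
      hilbert_bound e (by positivity) he _
    have h3 : nL2 (fun ξ => a (f ξ)) ≤ (2 : ℝ) ^ m * nL2 f :=
      nL2_le_of_norm_le _ _ (by positivity) fun ε => hup _
    calc nL2 (mult e f) ≤ 1 * nL2 (mult e (fun ξ => a (f ξ))) := h1
      _ ≤ ((m : ℝ) / (2 : ℝ) ^ m) * nL2 (fun ξ => a (f ξ)) := by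
          rw [one_mul]
          exact h2
      _ ≤ ((m : ℝ) / (2 : ℝ) ^ m) * ((2 : ℝ) ^ m * nL2 f) :=
          mul_le_mul_of_nonneg_left h3 (by positivity)
      _ = (m : ℝ) * nL2 f := by
          field_simp
  have hsub : nL2 (rad f) ≤ nL2 (mult d f) + nL2 (mult e f) := by
    have h1 : rad f = fun ε => mult d f ε + (-1 : ℝ) • mult e f ε := by
      funext ε
      rw [hdec]
      simp [sub_eq_add_neg]
    rw [h1]
    refine le_trans (nL2_add_le _ _) ?_
    rw [nL2_smul]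
    simp
  linarith

end Walsh

open Module in
/-- **Auerbach's lemma**, in the form needed here: a normed space of dimension `n` is
`n`-isomorphic to Euclidean space. -/
theorem exists_euclid_iso {X : Type*} [NormedAddCommGroup X] [NormedSpace ℝ X]
    [FiniteDimensional ℝ X] :
    ∃ a : X →ₗ[ℝ] EuclideanSpace ℝ (Fin (finrank ℝ X)),
      ∀ v, ‖v‖ ≤ ‖a v‖ ∧ ‖a v‖ ≤ (finrank ℝ X : ℝ) * ‖v‖ := by
  classical
  have : ProperSpace X := FiniteDimensional.proper_real X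
  set n := finrank ℝ X with hn
  let b : Basis (Fin n) ℝ X := Module.finBasis ℝ X
  let D := b.det
  have hcont : Continuous (fun v : Fin n → X => D v) := by
    have h1 : (fun v : Fin n → X => D v) =
        fun v => Matrix.det (Matrix.of (fun i j => b.coord i (v j))) := by
      funext v
      simp only [D]
      rw [Basis.det_apply]
      rfl
    rw [h1]
    apply Continuous.matrix_det
    refine continuous_matrix fun i j => ?_
    exact (LinearMap.continuous_of_finiteDimensional (b.coord i)).comp (continuous_apply j)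
  let K : Set (Fin n → X) := Set.pi Set.univ (fun _ => Metric.closedBall (0 : X) 1)
  have hK : IsCompact K := isCompact_univ_pi fun _ => isCompact_closedBall 0 1
  have hK0 : K.Nonempty := ⟨0, by simp [K]⟩
  obtain ⟨v0, hv0, hmax⟩ := hK.exists_isMaxOn hK0 (hcont.abs.continuousOn)
  have hmax' : ∀ v ∈ K, |D v| ≤ |D v0| := fun v hv => hmax hv
  -- the determinant at the maximiser does not vanish
  have hb0 : ∀ i, b i ≠ 0 := fun i => b.ne_zero i
  have hD0 : D v0 ≠ 0 := by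
    intro h0
    let w : Fin n → X := fun i => (‖b i‖⁻¹ : ℝ) • b i
    have hw : w ∈ K := by
      intro i _
      simp only [w, Metric.mem_closedBall, dist_zero_right, norm_smul, norm_inv, norm_norm]
      rw [inv_mul_cancel₀ (norm_ne_zero_iff.2 (hb0 i))]
    have h1 := hmax' w hw
    rw [h0, abs_zero] at h1
    have h2 : D w = ∏ i, (‖b i‖⁻¹ : ℝ) := by
      have := D.toMultilinearMap.map_smul_univ (fun i => (‖b i‖⁻¹ : ℝ)) (fun i => b i)
      simp only [AlternatingMap.coe_multilinearMap, smul_eq_mul] at this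
      simp only [w]
      rw [this]
      simp only [D]
      have h3 : (b.det ⇑b) = 1 := b.det_self
      rw [h3, mul_one]
    have h3 : D w ≠ 0 := by
      rw [h2]
      exact Finset.prod_ne_zero_iff.2 fun i _ => inv_ne_zero (norm_ne_zero_iff.2 (hb0 i))
    exact h3 (abs_nonpos_iff.1 h1)
  have hd0 : 0 < |D v0| := abs_pos.2 hD0
  -- the dual system
  let f : Fin n → X →ₗ[ℝ] ℝ := fun i => (D v0)⁻¹ • D.toMultilinearMap.toLinearMap v0 i
  have hf : ∀ i x, f i x = (D v0)⁻¹ * D (Function.update v0 i x) := by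
    intro i x
    simp [f]
  have hfbound : ∀ i x, |f i x| ≤ ‖x‖ := by
    intro i x
    rw [hf, abs_mul, abs_inv]
    by_cases hx : x = 0
    · subst hx
      have : D (Function.update v0 i 0) = 0 := D.map_update_zero v0 i
      rw [this]
      simp
    have hxn : 0 < ‖x‖ := norm_pos_iff.2 hx
    have h1 : Function.update v0 i ((‖x‖⁻¹ : ℝ) • x) ∈ K := by
      intro j _
      by_cases hj : j = i
      · subst hj
        simp only [Function.update_self, Metric.mem_closedBall, dist_zero_right, norm_smul,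
          norm_inv, norm_norm]
        rw [inv_mul_cancel₀ hxn.ne']
      · rw [Function.update_of_ne hj]
        exact hv0 j (Set.mem_univ j)
    have h2 := hmax' _ h1
    have h3 : D (Function.update v0 i ((‖x‖⁻¹ : ℝ) • x)) =
        (‖x‖⁻¹ : ℝ) * D (Function.update v0 i x) := by
      have := D.toMultilinearMap.map_update_smul v0 i (‖x‖⁻¹ : ℝ) x
      simpa using this
    rw [h3, abs_mul, abs_inv, abs_norm] at h2
    have h4 : |D (Function.update v0 i x)| ≤ ‖x‖ * |D v0| := by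
      rwa [inv_mul_le_iff₀ hxn] at h2
    calc |D v0|⁻¹ * |D (Function.update v0 i x)| ≤ |D v0|⁻¹ * (‖x‖ * |D v0|) :=
          mul_le_mul_of_nonneg_left h4 (by positivity)
      _ = ‖x‖ := by field_simp
  have hfdelta : ∀ i j, f i (v0 j) = if j = i then 1 else 0 := by
    intro i j
    rw [hf]
    split_ifs with h
    · subst h
      rw [Function.update_eq_self]
      field_simp
    · have : D (Function.update v0 i (v0 j)) = 0 := D.map_update_self v0 (fun e => h e.symm)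
      rw [this, mul_zero]
  -- `v0` is a basis
  have hbasis : LinearIndependent ℝ v0 ∧ Submodule.span ℝ (Set.range v0) = ⊤ := by
    have h := (Basis.is_basis_iff_det b (v := v0)).2 (isUnit_iff_ne_zero.2 hD0)
    exact h
  let B : Basis (Fin n) ℝ X := Basis.mk hbasis.1 hbasis.2.ge
  have hB : ∀ i, B i = v0 i := fun i => Basis.mk_apply _ _ i
  have hrec : ∀ x, x = ∑ i, f i x • v0 i := by
    intro x
    have h1 := (B.sum_repr x).symm
    have h2 : ∀ i, f i x = B.repr x i := by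
      intro i
      conv_lhs => rw [h1]
      rw [map_sum]
      simp only [map_smul, hB, hfdelta, smul_eq_mul]
      simp
    conv_lhs => rw [h1]
    refine Finset.sum_congr rfl fun i _ => ?_
    rw [h2, hB]
  have hv0n : ∀ i, ‖v0 i‖ ≤ 1 := by
    intro i
    have := hv0 i (Set.mem_univ i)
    simpa using this
  -- the isomorphism
  let a0 : X →ₗ[ℝ] EuclideanSpace ℝ (Fin n) :=
    { toFun := fun x => WithLp.toLp 2 (fun i => f i x)
      map_add' := by
        intro x y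
        ext i
        simp
      map_smul' := by
        intro c x
        ext i
        simp }
  have ha0 : ∀ x, ‖a0 x‖ ^ 2 = ∑ i, (f i x) ^ 2 := by
    intro x
    rw [EuclideanSpace.norm_sq_eq]
    simp [a0]
  have hup : ∀ x, ‖a0 x‖ ≤ Real.sqrt n * ‖x‖ := by
    intro x
    have h1 : ‖a0 x‖ ^ 2 ≤ (Real.sqrt n * ‖x‖) ^ 2 := by
      rw [ha0, mul_pow, Real.sq_sqrt (Nat.cast_nonneg n)]
      have : ∑ i : Fin n, (f i x) ^ 2 ≤ ∑ _i : Fin n, ‖x‖ ^ 2 :=
        Finset.sum_le_sum fun i _ => by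
          have := hfbound i x
          exact sq_le_sq' (by linarith [(abs_le.1 this).1]) (abs_le.1 this).2
      simpa using this
    exact (pow_le_pow_iff_left₀ (norm_nonneg _) (by positivity) (by norm_num)).1 h1
  have hlow : ∀ x, ‖x‖ ≤ Real.sqrt n * ‖a0 x‖ := by
    intro x
    have h1 : ‖x‖ ≤ ∑ i, |f i x| := by
      conv_lhs => rw [hrec x]
      refine le_trans (norm_sum_le _ _) (Finset.sum_le_sum fun i _ => ?_)
      rw [norm_smul, Real.norm_eq_abs]
      have := hv0n i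
      nlinarith [abs_nonneg (f i x)]
    have h2 : (∑ i, |f i x|) ^ 2 ≤ (n : ℝ) * ∑ i, (f i x) ^ 2 := by
      have := sq_sum_le_card_mul_sum_sq (s := (Finset.univ : Finset (Fin n)))
        (f := fun i => |f i x|)
      simpa using this
    have h3 : ∑ i, |f i x| ≤ Real.sqrt n * ‖a0 x‖ := by
      apply abs_le_of_sq_le_sq' _ (by positivity) |>.2
      rw [mul_pow, Real.sq_sqrt (Nat.cast_nonneg n), ha0]
      exact h2
    linarith
  refine ⟨Real.sqrt n • a0, fun v => ?_⟩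
  have hsn : 0 ≤ Real.sqrt n := Real.sqrt_nonneg _
  have hnorm : ‖(Real.sqrt n • a0) v‖ = Real.sqrt n * ‖a0 v‖ := by
    rw [LinearMap.smul_apply, norm_smul, Real.norm_eq_abs, abs_of_nonneg hsn]
  rw [hnorm]
  refine ⟨hlow v, ?_⟩
  have h1 := mul_le_mul_of_nonneg_left (hup v) hsn
  have h2 : Real.sqrt n * (Real.sqrt n * ‖v‖) = (n : ℝ) * ‖v‖ := by
    rw [← mul_assoc, Real.mul_self_sqrt (Nat.cast_nonneg n)]
  linarith

/-- The two basic bounds: the norming function `Y` on the dual side, and the resulting lower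
bound for the norm of the Rademacher projection. -/
theorem bounds {X : Type*} [NormedAddCommGroup X] [NormedSpace ℝ X] {s : ℕ} (x : Fin s → X)
    {r A C : ℝ} (hr : 0 < r) (hA : 0 ≤ A) (hC : 0 ≤ C)
    (hx : ∀ i, ‖x i‖ ≤ 1)
    (hlow : ∀ a : Fin s → ℝ, ∑ i, |a i| ≤ C * ‖∑ i, a i • x i‖)
    (hcot : DualCotype X r A) :
    (∃ Y : (Fin s → Bool) → StrongDual ℝ X, (∀ θ, ‖Y θ‖ ≤ C) ∧
        (s : ℝ) ^ (1 / r) ≤ A * nL2 (rad Y)) ∧
      ∀ K : ℝ, 0 ≤ K → (∀ g : (Fin s → Bool) → X, nL2 (rad g) ≤ K * nL2 g) →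
        (s : ℝ) ^ (1 / r) ≤ A * C * K := by
  classical
  choose Y hYn hYx using exists_dual x hC hlow
  -- the coefficients have norm at least one
  have hcoef : ∀ i, 1 ≤ ‖coef Y i‖ := by
    intro i
    have h1 : (coef Y i) (x i) = 1 := by
      rw [coef_apply]
      have : ∀ η : Fin s → Bool, sgn (η i) * (Y η) (x i) = 1 := by
        intro η
        rw [hYx, sgn_mul_self]
      simp only [this]
      simp
    have h2 : |(coef Y i) (x i)| ≤ ‖coef Y i‖ * ‖x i‖ := by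
      simpa [Real.norm_eq_abs] using (coef Y i).le_opNorm (x i)
    rw [h1, abs_one] at h2
    have h3 : ‖coef Y i‖ * ‖x i‖ ≤ ‖coef Y i‖ * 1 :=
      mul_le_mul_of_nonneg_left (hx i) (norm_nonneg _)
    linarith
  -- cotype
  have hmain : (s : ℝ) ^ (1 / r) ≤ A * nL2 (rad Y) := by
    have h := hcot s (coef Y)
    have h1 : (s : ℝ) ≤ ∑ i, ‖coef Y i‖ ^ r := by
      have : ∀ i ∈ (Finset.univ : Finset (Fin s)), (1 : ℝ) ≤ ‖coef Y i‖ ^ r := by
        intro i _
        exact Real.one_le_rpow (hcoef i) hr.le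
      have h2 := Finset.card_nsmul_le_sum _ _ _ this
      simpa using h2
    have h3 : (s : ℝ) ^ (1 / r) ≤ (∑ i, ‖coef Y i‖ ^ r) ^ (1 / r) :=
      Real.rpow_le_rpow (by positivity) h1 (by positivity)
    exact le_trans h3 h
  refine ⟨⟨Y, hYn, hmain⟩, ?_⟩
  intro K hK hrad
  -- bound on `nL2 Y`
  have hYL2 : nL2 Y ≤ C := by
    unfold nL2
    apply Real.sqrt_le_iff.2
    refine ⟨hC, ?_⟩
    have : ∑ ε, ‖Y ε‖ ^ 2 ≤ ∑ _ε : Fin s → Bool, C ^ 2 :=
      Finset.sum_le_sum fun ε _ => pow_le_pow_left₀ (norm_nonneg _) (hYn ε) 2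
    calc (1 / (2 : ℝ) ^ s) * ∑ ε, ‖Y ε‖ ^ 2
        ≤ (1 / (2 : ℝ) ^ s) * ∑ _ε : Fin s → Bool, C ^ 2 :=
          mul_le_mul_of_nonneg_left this (w_pos s).le
      _ = C ^ 2 := by
          simp only [Finset.sum_const, card_cube, nsmul_eq_mul]
          push_cast
          field_simp
  -- the duality argument
  set t : ℝ := nL2 (rad Y) with ht
  have ht0 : 0 ≤ t := Real.sqrt_nonneg _
  have htsq : t ^ 2 = (1 / (2 : ℝ) ^ s) * ∑ ε, ‖rad Y ε‖ ^ 2 := by
    rw [ht, nL2, Real.sq_sqrt]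
    exact mul_nonneg (w_pos s).le (Finset.sum_nonneg fun ε _ => by positivity)
  have hkey : ∀ δ : ℝ, 0 < δ → t ^ 2 - δ ≤ C * K * t := by
    intro δ hδ
    choose g hg1 hg2 using fun ε => exists_norming (rad Y ε) hδ
    have hgL2 : nL2 g ≤ t := by
      unfold nL2
      rw [ht]
      unfold nL2
      apply Real.sqrt_le_sqrt
      apply mul_le_mul_of_nonneg_left _ (w_pos s).le
      exact Finset.sum_le_sum fun ε _ => pow_le_pow_left₀ (norm_nonneg _) (hg1 ε) 2
    have hlow2 : t ^ 2 - δ ≤ (1 / (2 : ℝ) ^ s) * ∑ ε, (rad Y ε) (g ε) := by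
      have h1 : ∑ ε, (‖rad Y ε‖ ^ 2 - δ) ≤ ∑ ε, (rad Y ε) (g ε) :=
        Finset.sum_le_sum fun ε _ => hg2 ε
      have h2 : ∑ ε, (‖rad Y ε‖ ^ 2 - δ) = (∑ ε, ‖rad Y ε‖ ^ 2) - (2 : ℝ) ^ s * δ := by
        rw [Finset.sum_sub_distrib]
        simp
      rw [h2] at h1
      have h3 := mul_le_mul_of_nonneg_left h1 (w_pos s).le
      have h4 : (1 / (2 : ℝ) ^ s) * ((∑ ε, ‖rad Y ε‖ ^ 2) - (2 : ℝ) ^ s * δ) =
          (1 / (2 : ℝ) ^ s) * (∑ ε, ‖rad Y ε‖ ^ 2) - δ := by
        field_simp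
      rw [h4, ← htsq] at h3
      exact h3
    have hup : (1 / (2 : ℝ) ^ s) * ∑ ε, (Y ε) (rad g ε) ≤ C * K * t := by
      have h1 : ∑ ε, (Y ε) (rad g ε) ≤ ∑ ε, ‖Y ε‖ * ‖rad g ε‖ :=
        Finset.sum_le_sum fun ε _ => by
          have := (Y ε).le_opNorm (rad g ε)
          exact le_trans (le_abs_self _) (by simpa [Real.norm_eq_abs] using this)
      have h2 := mul_le_mul_of_nonneg_left h1 (w_pos s).le
      have h3 : (1 / (2 : ℝ) ^ s) * ∑ ε, ‖Y ε‖ * ‖rad g ε‖ ≤ nL2 Y * nL2 (rad g) :=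
        avg_mul_le (fun ε => ‖Y ε‖) (fun ε => ‖rad g ε‖)
      have h6 : nL2 (rad g) ≤ K * t :=
        le_trans (hrad g) (mul_le_mul_of_nonneg_left hgL2 hK)
      have h7 : nL2 Y * nL2 (rad g) ≤ C * (K * t) :=
        mul_le_mul hYL2 h6 (Real.sqrt_nonneg _) hC
      calc (1 / (2 : ℝ) ^ s) * ∑ ε, (Y ε) (rad g ε) ≤ nL2 Y * nL2 (rad g) := le_trans h2 h3
        _ ≤ C * (K * t) := h7
        _ = C * K * t := by ring
    have hp := pairing_rad Y g
    linarith
  have hfinal : t ^ 2 ≤ C * K * t := by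
    by_contra hcon
    have hcon : C * K * t < t ^ 2 := not_le.1 hcon
    have := hkey ((t ^ 2 - C * K * t) / 2) (by linarith)
    linarith
  have ht2 : t ≤ C * K := by
    rcases eq_or_lt_of_le ht0 with h0 | hpos
    · rw [← h0]
      exact mul_nonneg hC hK
    · nlinarith
  calc (s : ℝ) ^ (1 / r) ≤ A * t := hmain
    _ ≤ A * (C * K) := mul_le_mul_of_nonneg_left ht2 hA
    _ = A * C * K := by ring

/-- **Polynomial growth of the Rademacher projection.** Suppose `x_1, …, x_s` in the unit ball of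
`X` satisfy `∑ |a_i| ≤ C ‖∑ a_i x_i‖` and `X*` has cotype `r` with constant `A`. Then

1. there is `Y : {-1,1}^s → X*` with `‖Y θ‖ ≤ C` for all `θ` and `s^(1/r) ≤ A ‖Rad Y‖_{L_2(X*)}`;
2. if the Rademacher projection on `L_2({-1,1}^s; X)` has norm at most `K`, then
   `s^(1/r) ≤ A C K`;
3. if `X` is `2^m`-isomorphic to a Hilbert space (`m ≥ 1`), then `s^(1/r) ≤ 3 m A C`;
4. if `X` is finite dimensional with `dim X ≤ 2^m` (`m ≥ 1`), then `s^(1/r) ≤ 3 m A C`. -/
theorem result {X : Type u} [NormedAddCommGroup X] [NormedSpace ℝ X] {s : ℕ} (x : Fin s → X)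
    {r A C : ℝ} (hr : 0 < r) (hA : 0 ≤ A) (hC : 0 ≤ C)
    (hx : ∀ i, ‖x i‖ ≤ 1)
    (hlow : ∀ a : Fin s → ℝ, ∑ i, |a i| ≤ C * ‖∑ i, a i • x i‖)
    (hcot : DualCotype X r A) :
    (∃ Y : (Fin s → Bool) → StrongDual ℝ X, (∀ θ, ‖Y θ‖ ≤ C) ∧
        (s : ℝ) ^ (1 / r) ≤ A * nL2 (rad Y)) ∧
    (∀ K : ℝ, 0 ≤ K → (∀ g : (Fin s → Bool) → X, nL2 (rad g) ≤ K * nL2 g) →
        (s : ℝ) ^ (1 / r) ≤ A * C * K) ∧
    (∀ (H : Type v) [NormedAddCommGroup H] [InnerProductSpace ℝ H] (a : X →ₗ[ℝ] H) (m : ℕ),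
        0 < m → (∀ v, ‖v‖ ≤ ‖a v‖) → (∀ v, ‖a v‖ ≤ (2 : ℝ) ^ m * ‖v‖) →
        (s : ℝ) ^ (1 / r) ≤ 3 * (m : ℝ) * A * C) ∧
    (FiniteDimensional ℝ X → ∀ m : ℕ, 0 < m → Module.finrank ℝ X ≤ 2 ^ m →
        (s : ℝ) ^ (1 / r) ≤ 3 * (m : ℝ) * A * C) := by
  obtain ⟨h1, h2⟩ := bounds x hr hA hC hx hlow hcot
  refine ⟨h1, h2, ?_, ?_⟩
  · intro H _ _ a m hm hl hu
    have h3 := h2 (3 * (m : ℝ)) (by positivity) fun g => rad_bound a hm hl hu g
    linarith [h3, show A * C * (3 * (m : ℝ)) = 3 * (m : ℝ) * A * C by ring]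
  · intro hfd m hm hn
    obtain ⟨a, ha⟩ := exists_euclid_iso (X := X)
    have hu : ∀ v, ‖a v‖ ≤ (2 : ℝ) ^ m * ‖v‖ := by
      intro v
      refine le_trans (ha v).2 (mul_le_mul_of_nonneg_right ?_ (norm_nonneg v))
      exact_mod_cast hn
    have h3 := h2 (3 * (m : ℝ)) (by positivity) fun g =>
      rad_bound a hm (fun v => (ha v).1) hu g
    linarith [h3, show A * C * (3 * (m : ℝ)) = 3 * (m : ℝ) * A * C by ring]

end Vale.Agent.Results.P111.RadGrowth
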