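import Vale.Agent.Results.P111.LatticeSubspace
import Vale.Agent.Results.P111.RadGrowth

open Finset

open Vale.Agent.Results.P111

universe u v w

/-- Two obstructions to a uniform copy of `ℓ_1^s` in a space whose dual has finite cotype: the bound
for spaces mapping into a solid function lattice of finite concavity, and the polynomial growth of
the Rademacher projection with the bounds in terms of the dimension or the distance to a Hilbert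
space. -/
theorem Vale.Agent.Results.P111.A0Conj.result :
    (∀ {S : Type u} {X : Type v} [MeasurableSpace S] [NormedAddCommGroup X] [NormedSpace ℝ X]
      (L : LatticeSubspace.SolidLattice S) {s : ℕ} (_ : 1 ≤ s) {M : ℝ} (_ : 0 < M)
      (_ : L.Concave s M) (T : X →ₗ[ℝ] (S → ℝ)) (_ : ∀ x, T x ∈ L.carrier)
      {D : ℝ} (_ : 0 < D) (_ : ∀ x, L.nrm (T x) ≤ D * ‖x‖)
      {r C : ℝ} (_ : 0 < r) (_ : 0 ≤ C) (_ : LatticeSubspace.DualCotype X r C)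
      {δ : ℝ} (_ : 0 < δ) {k : ℕ} (f : Fin k → X) (_ : ∀ i, ‖f i‖ ≤ 1)
      (_ : δ * k ≤ (1 / (2 : ℝ) ^ k) *
        ∑ ε : Fin k → Bool, L.nrm (T (∑ i, LatticeSubspace.sgn (ε i) • f i))),
      (k : ℝ) ≤ (4 * D / (δ / (4 * s * M))) * (16 * C * D ^ 3 / (δ / (4 * s * M)) ^ 3) ^ r) ∧
    (∀ {X : Type v} [NormedAddCommGroup X] [NormedSpace ℝ X] {s : ℕ} (x : Fin s → X)
      {r A C : ℝ} (_ : 0 < r) (_ : 0 ≤ A) (_ : 0 ≤ C)
      (_ : ∀ i, ‖x i‖ ≤ 1)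
      (_ : ∀ a : Fin s → ℝ, ∑ i, |a i| ≤ C * ‖∑ i, a i • x i‖)
      (_ : RadGrowth.DualCotype X r A),
      (∃ Y : (Fin s → Bool) → StrongDual ℝ X, (∀ θ, ‖Y θ‖ ≤ C) ∧
          (s : ℝ) ^ (1 / r) ≤ A * RadGrowth.nL2 (RadGrowth.rad Y)) ∧
      (∀ K : ℝ, 0 ≤ K →
          (∀ g : (Fin s → Bool) → X, RadGrowth.nL2 (RadGrowth.rad g) ≤ K * RadGrowth.nL2 g) →
          (s : ℝ) ^ (1 / r) ≤ A * C * K) ∧
      (∀ (H : Type w) [NormedAddCommGroup H] [InnerProductSpace ℝ H] (a : X →ₗ[ℝ] H) (m : ℕ),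
          0 < m → (∀ v, ‖v‖ ≤ ‖a v‖) → (∀ v, ‖a v‖ ≤ (2 : ℝ) ^ m * ‖v‖) →
          (s : ℝ) ^ (1 / r) ≤ 3 * (m : ℝ) * A * C) ∧
      (FiniteDimensional ℝ X → ∀ m : ℕ, 0 < m → Module.finrank ℝ X ≤ 2 ^ m →
          (s : ℝ) ^ (1 / r) ≤ 3 * (m : ℝ) * A * C)) := by
  refine ⟨?_, ?_⟩
  · intro S X _ _ _ L s hs M hM hconc T hTmem D hD hT r C hr hC hcot δ hδ k f hf hlow
    exact LatticeSubspace.result L hs hM hconc T hTmem hD hT hr hC hcot hδ f hf hlow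
  · intro X _ _ s x r A C hr hA hC hx hlow hcot
    exact RadGrowth.result.{v, w} x hr hA hC hx hlow hcot
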